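import Mathlib
import Vale.Agent.P047lib.TopMinusTwo
import Vale.Agent.P047lib.Four
import Vale.Agent.P047lib.FourSharp
import Vale.Agent.P047lib.Fano

namespace Vale.Agent.Results.P047.DegreeFour

open Finset

/-- **The exact value `M(4) = 7/4`.**
(i) Every Boolean function `f : {-1,1}^n → {-1,1}` (any number `n` of variables) whose Fourier
coefficients of order more than `4` vanish, i.e. `deg f ≤ 4`, satisfies `∑_i f̂({i}) ≤ 7/4`.
(ii) There is a Boolean function on `7` variables with `deg f ≤ 4` and `∑_i f̂({i}) = 7/4`.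
In particular `∑_i f̂({i}) ≤ 7/4 < 2 = √4` for every Boolean function of degree `4`, so the
Gopalan-Servedio inequality holds in degree `4`. -/
theorem result :
    (∀ (n : ℕ) (f : (Fin n → Bool) → ℝ), (∀ x, f x = 1 ∨ f x = -1) →
      (∀ T : Finset (Fin n), 4 < T.card → DegTopMinusTwo.fourier f T = 0) →
      ∑ i : Fin n, DegTopMinusTwo.fourier f {i} ≤ 7 / 4)
    ∧ ∃ f : (Fin 7 → Bool) → ℝ, (∀ x, f x = 1 ∨ f x = -1) ∧
      (∀ T : Finset (Fin 7), 4 < T.card → DegTopMinusTwo.fourier f T = 0) ∧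
      ∑ i : Fin 7, DegTopMinusTwo.fourier f {i} = 7 / 4 :=
  ⟨fun n f hf hdeg => (Vale.Agent.P047lib.FourSharp.main n f ⟨hf, hdeg⟩).1,
    Vale.Agent.P047lib.Fano.f, Vale.Agent.P047lib.Fano.hf, Vale.Agent.P047lib.Fano.deg_le,
    Vale.Agent.P047lib.Fano.W_eq⟩

end Vale.Agent.Results.P047.DegreeFour
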