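import Mathlib
import Vale.Agent.P047lib.TopMinusTwo
import Vale.Agent.P047lib.Main
import Vale.Agent.P047lib.Numerics

namespace Vale.Agent.Results.P047.LinearBound

open Finset
open Vale.Agent.P047lib

/-- **A constant-factor improvement of the bound `M(d) ≤ d`.**
Every Boolean function `f : {-1,1}^n → {-1,1}` (any number `n` of variables) whose Fourier
coefficients of order more than `d` vanish, where `d ≥ 2`, satisfies
`∑_i f̂({i}) ≤ (59/60) · d`.  Hence `M(d) ≤ (59/60) d` for all `d ≥ 2`. -/
theorem result (n d : ℕ) (hd : 2 ≤ d) (f : (Fin n → Bool) → ℝ)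
    (hf : ∀ x, f x = 1 ∨ f x = -1)
    (hdeg : ∀ T : Finset (Fin n), d < T.card → DegTopMinusTwo.fourier f T = 0) :
    ∑ i : Fin n, DegTopMinusTwo.fourier f {i} ≤ (59 / 60 : ℝ) * d := by
  have hdr : (2 : ℝ) ≤ d := by exact_mod_cast hd
  by_cases hc : ∃ x0, f x0 = -1
  · obtain ⟨x0, hx0⟩ := hc
    obtain ⟨m, hm⟩ : ∃ m, d = 2 * m + 1 ∨ d = 2 * m + 2 := by
      rcases Nat.even_or_odd' d with ⟨k, hk | hk⟩
      · exact ⟨k - 1, Or.inr (by omega)⟩
      · exact ⟨k, Or.inl hk⟩
    have hd1 : 2 * m + 1 ≤ d := by rcases hm with h | h <;> omega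
    have hd2 : d ≤ 2 * m + 2 := by rcases hm with h | h <;> omega
    have hbern := Main.bernstein_bound f hf d m (by omega) hd2 hdeg
    rcases Nat.lt_or_ge m 2 with hm2 | hm2
    · rcases Nat.lt_or_ge m 1 with hm1 | hm1
      · have hm0 : m = 0 := by omega
        subst hm0
        norm_num at hbern
        linarith
      · have hm1' : m = 1 := by omega
        subst hm1'
        rcases hm with h | h
        · have hE := Main.explicit_bound f hf x0 hx0 d 1 (le_refl 1) hd1 hd2 hdeg
          rw [Numerics.node_three] at hE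
          subst h
          norm_num at hE ⊢
          linarith
        · subst h
          norm_num at hbern ⊢
          linarith
    · have hE := Main.explicit_bound f hf x0 hx0 d m (by omega) hd1 hd2 hdeg
      have hG := Numerics.gain_lower m d hm2 hd2
      have hdm : (2 * (m : ℝ) + 1) ≤ d := by exact_mod_cast hd1
      linarith
  · have hc' : ∀ x, f x = 1 := by
      intro x
      rcases hf x with h | h
      · exact h
      · exact absurd ⟨x, h⟩ hc
    rw [Main.const_sum_zero f hc']
    positivity

end Vale.Agent.Results.P047.LinearBound
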