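import Mathlib
import Vale.Agent.P047lib.TopMinusTwo
import Vale.Agent.P047lib.Udnf
import Vale.Agent.P047lib.Partition

namespace Vale.Agent.Results.P047.SubcubePartition

open Finset
open Vale.Agent.P047lib.Udnf
open Vale.Agent.P047lib.Partition

/-- **The square-root inequality for subcube partitions.**
Let the cube `{-1,1}^n` be partitioned into subcubes: a finite family `F` of patterns
`c : Fin n → Option Bool` (`c i = some b` fixes coordinate `i` to the bit `b`, `c i = none`
leaves it free) such that every point lies in exactly one of the subcubes.  Let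
`f : {-1,1}^n → [-1,1]` (for instance a Boolean function) be constant on each subcube of the
family.  Then
`∑_i |f̂({i})| ≤ √(∑_{C ∈ F} codim(C) · 2^{-codim(C)})`,
the square root of the average codimension of the subcube containing a uniform random point;
in particular `∑_i |f̂({i})| ≤ √d` when every subcube has codimension at most `d`. -/
theorem result (n : ℕ) (f : (Fin n → Bool) → ℝ) (hf : ∀ x, |f x| ≤ 1)
    (F : Finset (Fin n → Option Bool))
    (hcover : ∀ x, ∃ c ∈ F, InCube c x)
    (hunamb : ∀ x, ∀ c ∈ F, ∀ c' ∈ F, InCube c x → InCube c' x → c = c')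
    (hconst : ∀ c ∈ F, ∀ x y, InCube c x → InCube c y → f x = f y) :
    ∑ i : Fin n, |Vale.Agent.Results.P047.DegTopMinusTwo.fourier f {i}|
        ≤ Real.sqrt (∑ c ∈ F, (codim c : ℝ) / 2 ^ codim c)
      ∧ ∀ d : ℕ, (∀ c ∈ F, codim c ≤ d) →
        ∑ i : Fin n, |Vale.Agent.Results.P047.DegTopMinusTwo.fourier f {i}| ≤ Real.sqrt d :=
  main f hf F hcover hunamb hconst

end Vale.Agent.Results.P047.SubcubePartition
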