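import Mathlib
import Vale.Agent.P047lib.TopMinusTwo
import Vale.Agent.P047lib.Udnf

namespace Vale.Agent.Results.P047.UnambiguousDNF

open Finset
open Vale.Agent.P047lib.Udnf

/-- **The square-root bound for unambiguous DNFs of width `d`.**
Let `f : {-1,1}^n → {-1,1}` be a Boolean function (any number `n` of variables) whose set
`f = -1` is a disjoint union of subcubes of codimension at most `d`, where `d ≥ 1`: the
subcubes are given by a finite family `F` of patterns `c : Fin n → Option Bool`
(`c i = some b` fixes coordinate `i` to the bit `b`, `c i = none` leaves it free), every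
pattern fixes at most `d` coordinates, `f x = -1` exactly when `x` lies in some subcube of
the family, and no point lies in two of them.  Then, with `μ` the fraction of points where
`f = -1`,
`∑_i |f̂({i})| ≤ 2 μ √(2 d ln(1/μ))`   and   `∑_i |f̂({i})| ≤ (2/√e) √d`. -/
theorem result (n d : ℕ) (hd : 1 ≤ d) (f : (Fin n → Bool) → ℝ)
    (hf : ∀ x, f x = 1 ∨ f x = -1)
    (F : Finset (Fin n → Option Bool))
    (hcodim : ∀ c ∈ F, (univ.filter (fun i => c i ≠ none)).card ≤ d)
    (hcover : ∀ x, f x = -1 ↔ ∃ c ∈ F, InCube c x)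
    (hunamb : ∀ x, ∀ c ∈ F, ∀ c' ∈ F, InCube c x → InCube c' x → c = c') :
    ∑ i : Fin n, |Vale.Agent.Results.P047.DegTopMinusTwo.fourier f {i}|
        ≤ 2 * negFrac f * Real.sqrt (2 * d * Real.log (1 / negFrac f))
      ∧ ∑ i : Fin n, |Vale.Agent.Results.P047.DegTopMinusTwo.fourier f {i}|
        ≤ 2 * Real.exp (-(1 / 2)) * Real.sqrt d :=
  main hd f hf F hcodim hcover hunamb

end Vale.Agent.Results.P047.UnambiguousDNF
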